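import Vale.Agent.P033.Main

theorem Vale.Agent.Results.P033.Circulant.result (n : ℕ) [NeZero n]
    (H : Matrix (Fin n) (Fin n) ℝ) (h : Fin n → ℝ) (hsign : ∀ j, h j = 1 ∨ h j = -1)
    (hcirc : ∀ i j, H i j = h (j - i))
    (hHad : H * H.transpose = (n : ℝ) • (1 : Matrix (Fin n) (Fin n) ℝ)) :
    n = 1 ∨ n = 4 :=
  Vale.Agent.P033.main hsign hcirc hHad
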